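import Vale.Agent.P141.H498.ColPr2

/-!
# P141, line (S): one more alive stop, the energy of `⟪u, v⟫` on the honest cubes

`stF M F K k z`: the average of `F ^ 2` on the cube of scale `m` of `z` is more than `M` for some
`k ≤ m < K`.

* `rest_F`: the restart, abstract costs;
* `rest_cosF2`: inside any hereditary alive set;
* `CE1b`: `CE1a` with the smaller alive set, `ce1a_of_b : CE1b → H305.CE1a`;
* `avg_F_le`: on a cube which is not stopped the average of `F ^ 2` is at most `M`.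
-/

namespace Vale.Agent.P141.H358

open Finset
open Vale.Agent.P141.PL (Pt ix cx)
open Vale.Agent.P141.PL.H315 (iv Tri A2 avg avg_nonneg cube3 card_cube3 atm gz mem_cube3
  card_cube3_pos)
open Vale.Agent.P141.PL.H990 (Rule ofCond ofCond_b)
open Vale.Agent.P141.PL.H317 (crn)
open Vale.Agent.P141.H48 (US ES cst cst_crn A4)
open Vale.Agent.P141.H572 (cosF)
open Vale.Agent.P141.H579 (cosA nrt czF sum_czF cosA_true comp_cosF not_cst)
open Vale.Agent.P141.H136 (comp)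
open Vale.Agent.P141.H971 (Cen)
open Vale.Agent.P141.H922 (n2 n4 nN pw3 wP n2_nonneg n4_nonneg nN_nonneg wP_nonneg n2_e12 n2_e13
  n2_e23 nN_e12 nN_e13 nN_e23)

noncomputable section

open scoped Classical

/-! ### The stopping rule -/

/-- the average of the square on the cube of scale `m` is big -/
def bF (M : ℝ) (F : Pt → ℝ) (m : ℕ) (z : Pt) : Prop := M < avg (cube3 m z) fun p => F p ^ 2

/-- the cube of scale `k` of `z` is stopped -/
def stF (M : ℝ) (F : Pt → ℝ) (K k : ℕ) (z : Pt) : Prop := ∃ m, k ≤ m ∧ m < K ∧ bF M F m z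

theorem avg_F_le {M : ℝ} {F : Pt → ℝ} {K k m : ℕ} {z : Pt} (h : ¬ stF M F K k z) (h1 : k ≤ m)
    (h2 : m < K) : (avg (cube3 m z) fun p => F p ^ 2) ≤ M := by
  by_contra h3
  exact h ⟨m, h1, h2, not_le.1 h3⟩

theorem stF_mono {M : ℝ} {F : Pt → ℝ} {K k l : ℕ} {z : Pt} (h : ¬ stF M F K k z) (hk : k ≤ l) :
    ¬ stF M F K l z := fun ⟨m, h1, h2, h3⟩ => h ⟨m, hk.trans h1, h2, h3⟩

theorem bF_congr (M : ℝ) (F : Pt → ℝ) (k : ℕ) {z z' : Pt} (hz : z' ∈ gz.cube k z) :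
    bF M F k z' ↔ bF M F k z := by
  have h : cube3 k z' = cube3 k z := gz.eq_of_mem k z z' hz
  unfold bF
  rw [h]

theorem cube3_crn (k m : ℕ) (h : k ≤ m) (z : Pt) : cube3 m (crn k (cx k z)) = cube3 m z := by
  have h1 : crn k (cx k z) ∈ gz.cube k z := by
    show crn k (cx k z) ∈ cube3 k z
    rw [mem_cube3]
    unfold crn cx
    refine ⟨?_, ?_, ?_⟩ <;>
    · show _ ∈ PL.iv k (ix k _)
      rw [PL.mem_iv]
      exact H48.ix_corner k _
  exact gz.eq_of_mem m z _ (gz.sub_le h z h1)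

theorem stF_crn (M : ℝ) (F : Pt → ℝ) (K k : ℕ) (z : Pt) :
    stF M F K k (crn k (cx k z)) ↔ stF M F K k z := by
  unfold stF bF
  refine exists_congr fun m => ?_
  constructor
  · rintro ⟨h1, h2, h3⟩
    rw [cube3_crn k m h1] at h3
    exact ⟨h1, h2, h3⟩
  · rintro ⟨h1, h2, h3⟩
    rw [← cube3_crn k m h1] at h3
    exact ⟨h1, h2, h3⟩

/-- **The restart, abstract costs.** -/
theorem rest_F {M B P0 : ℝ} (hM : 0 < M) (hP : 0 ≤ P0) {F : Pt → ℝ} {K : ℕ} {x : Pt}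
    (hB : (avg (cube3 K x) fun p => F p ^ 2) ≤ B) (c : ℕ → Pt → ℝ)
    (h : ∀ K' < K, ∀ x' ∈ cube3 K x, bF M F K' x' →
      ∑ k ∈ range (K' + 1), ∑ z ∈ cube3 K' x', c k z ≤ P0 * 8 ^ K') :
    ∑ k ∈ range (K + 1), ∑ z ∈ cube3 K x, c k z ≤
      (∑ k ∈ range (K + 1), ∑ z ∈ cube3 K x with ¬ stF M F K k z, c k z) +
        P0 * (B / M) * 8 ^ K := by
  set R : Rule gz K := ofCond gz K (fun m z => m < K ∧ bF M F m z)
    (fun k _ z z' hz => and_congr_right fun _ => bF_congr M F k hz)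
    (fun z h => lt_irrefl _ h.1) with hR
  have hS : ∀ k z, R.S k z ↔ stF M F K k z := by
    intro k z
    constructor
    · rintro ⟨m, h1, _, h3, h4⟩
      exact ⟨m, h1, h3, h4⟩
    · rintro ⟨m, h1, h2, h3⟩
      exact ⟨m, h1, h2.le, h2, h3⟩
  have hb : ∀ z, R.S 0 z → bF M F (R.m z) z := fun z hz => (ofCond_b hz).2
  have e1 : ∑ k ∈ range (K + 1), ∑ z ∈ cube3 K x, c k z =
      (∑ k ∈ range (K + 1), ∑ z ∈ cube3 K x with ¬ stF M F K k z, c k z) +
      ∑ k ∈ range (K + 1), ∑ z ∈ cube3 K x with stF M F K k z, c k z := by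
    rw [← sum_add_distrib]
    refine sum_congr rfl fun k _ => ?_
    rw [add_comm]
    exact (sum_filter_add_sum_filter_not _ _ _).symm
  have e2 : ∑ k ∈ range (K + 1), ∑ z ∈ cube3 K x with stF M F K k z, c k z =
      ∑ z ∈ gz.cube K x with R.S 0 z, ∑ k ∈ range (R.m z + 1), c k z := by
    have e3 : ∀ k ∈ range (K + 1), ∑ z ∈ cube3 K x with stF M F K k z, c k z =
        ∑ z ∈ gz.cube K x with R.S 0 z, if k ≤ R.m z then c k z else 0 := by
      intro k _
      rw [← sum_filter, filter_filter]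
      refine sum_congr ?_ fun _ _ => rfl
      ext z
      simp only [mem_filter]
      refine and_congr_right fun _ => ?_
      constructor
      · intro hs
        have hs' := (hS k z).2 hs
        exact ⟨R.mono_le (Nat.zero_le k) hs', R.le_m hs'⟩
      · rintro ⟨hs, hk⟩
        exact (hS k z).1 (R.mono_le hk (R.S_m hs))
    rw [sum_congr rfl e3, sum_comm]
    refine sum_congr rfl fun z hz => ?_
    have hlt := R.m_lt (mem_filter.mp hz).2
    rw [← sum_filter]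
    refine sum_congr ?_ fun _ _ => rfl
    ext k
    simp only [mem_filter, mem_range]
    omega
  -- the cost below the stopped cubes
  have e4 : ∑ z ∈ gz.cube K x with R.S 0 z, ∑ k ∈ range (R.m z + 1), c k z ≤
      ∑ z ∈ gz.cube K x with R.S 0 z, P0 := by
    have h1 := R.sum_stopped_le (x := x) (k₀ := K) le_rfl
      (a := fun m z => if bF M F m z then ∑ k ∈ range (m + 1), c k z else 0)
      (b := fun m z => if bF M F m z then P0 else 0) fun k hk y hy => by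
        have hc : ∀ z ∈ gz.cube k y, (bF M F k z ↔ bF M F k y) := fun z hz => bF_congr M F k hz
        by_cases hy' : bF M F k y
        · rw [sum_congr rfl fun z hz => if_pos ((hc z hz).2 hy'),
            sum_congr rfl fun z hz => if_pos ((hc z hz).2 hy')]
          have h3 := h k hk y hy hy'
          rw [sum_comm] at h3
          refine h3.trans_eq ?_
          rw [sum_const, nsmul_eq_mul]
          show _ = ((cube3 k y).card : ℝ) * P0
          rw [card_cube3]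
          push_cast
          ring
        · rw [sum_congr rfl fun z hz => if_neg fun h => hy' ((hc z hz).1 h),
            sum_congr rfl fun z hz => if_neg fun h => hy' ((hc z hz).1 h)]
    have h2 : ∑ z ∈ gz.cube K x with R.S 0 z, ∑ k ∈ range (R.m z + 1), c k z =
        ∑ z ∈ gz.cube K x with R.S 0 z,
          (if bF M F (R.m z) z then ∑ k ∈ range (R.m z + 1), c k z else 0) :=
      sum_congr rfl fun z hz => (if_pos (hb z (mem_filter.1 hz).2)).symm
    have h3 : ∑ z ∈ gz.cube K x with R.S 0 z, P0 =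
        ∑ z ∈ gz.cube K x with R.S 0 z, (if bF M F (R.m z) z then P0 else 0) :=
      sum_congr rfl fun z hz => (if_pos (hb z (mem_filter.1 hz).2)).symm
    rw [h2, h3]
    exact h1
  -- the number of stopped points
  have e5 : ∑ z ∈ gz.cube K x with R.S 0 z, M ≤ B * 8 ^ K := by
    have h1 := R.sum_stopped_le (x := x) (k₀ := K) le_rfl
      (a := fun m z => if bF M F m z then M else 0)
      (b := fun _ z => F z ^ 2) fun k hk y hy => by
        have hc : ∀ z ∈ gz.cube k y, (bF M F k z ↔ bF M F k y) := fun z hz => bF_congr M F k hz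
        by_cases hy' : bF M F k y
        · rw [sum_congr rfl fun z hz => if_pos ((hc z hz).2 hy'), sum_const, nsmul_eq_mul]
          have h3 : M < avg (cube3 k y) fun p => F p ^ 2 := hy'
          have h4 := card_cube3_pos k y
          unfold Vale.Agent.P141.PL.H315.avg at h3
          have h5 := mul_lt_mul_of_pos_left h3 h4
          rw [← mul_assoc, mul_inv_cancel₀ h4.ne', one_mul] at h5
          exact h5.le
        · rw [sum_congr rfl fun z hz => if_neg fun h => hy' ((hc z hz).1 h), sum_const_zero]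
          exact sum_nonneg fun z _ => sq_nonneg _
    have h2 : ∑ z ∈ gz.cube K x with R.S 0 z, M =
        ∑ z ∈ gz.cube K x with R.S 0 z, (if bF M F (R.m z) z then M else 0) :=
      sum_congr rfl fun z hz => (if_pos (hb z (mem_filter.1 hz).2)).symm
    rw [h2]
    refine h1.trans ?_
    refine (sum_le_sum_of_subset_of_nonneg (filter_subset _ _) fun z _ _ => sq_nonneg (F z)).trans ?_
    have h4 := card_cube3_pos K x
    unfold Vale.Agent.P141.PL.H315.avg at hB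
    have h5 := mul_le_mul_of_nonneg_left hB h4.le
    rw [← mul_assoc, mul_inv_cancel₀ h4.ne', one_mul, card_cube3] at h5
    push_cast at h5
    calc _ ≤ _ := h5
      _ = _ := by ring
  have e6 : ∑ z ∈ gz.cube K x with R.S 0 z, P0 ≤ P0 * (B / M) * 8 ^ K := by
    have h1 : ∑ z ∈ gz.cube K x with R.S 0 z, P0 =
        P0 / M * ∑ z ∈ gz.cube K x with R.S 0 z, M := by
      rw [mul_sum]
      refine sum_congr rfl fun z _ => ?_
      field_simp
    rw [h1]
    refine (mul_le_mul_of_nonneg_left e5 (by positivity)).trans (le_of_eq ?_)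
    ring
  rw [e1, e2]
  exact add_le_add le_rfl (e4.trans e6)

/-- **The restart inside a hereditary alive set** `A`. -/
theorem rest_cosF2 {M B P0 : ℝ} (hM : 0 < M) (hP : 0 ≤ P0) {F : Pt → ℝ} {K : ℕ} {x : Pt}
    (hB : (avg (cube3 K x) fun p => F p ^ 2) ≤ B)
    {A : ℕ → Pt → Prop} (hA : ∀ k z, A k (crn k (cx k z)) ↔ A k z)
    (hup : ∀ k l z, k ≤ l → A k z → A l z)
    (o : ℤ) (F0 : Pt → ℝ) (F1 F2 F3 : ℕ → Pt → Pt → ℝ)
    (h : ∀ K' < K, ∀ x' ∈ cube3 K x, A K' x' → bF M F K' x' →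
      cosF o K' x' F0 F1 F2 F3 ≤ P0 * 8 ^ K') :
    cosA A o K x F0 F1 F2 F3 ≤
      cosA (fun k z => A k z ∧ ¬ stF M F K k z) o K x F0 F1 F2 F3 + P0 * (B / M) * 8 ^ K := by
  have hnn : ∀ k z, 0 ≤ czF o F0 F1 F2 F3 k z := by
    intro k z
    unfold H579.czF
    split_ifs
    · exact le_rfl
    · positivity
  have hcu : ∀ (k : ℕ) (y z : Pt), z ∈ cube3 k y → (A k z ↔ A k y) := by
    intro k y z hz
    have h1 : cx k z = cx k y := by
      have h2 := mem_cube3.1 hz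
      unfold cx
      have e1 : ix k z.1 = ix k y.1 := PL.mem_iv.1 h2.1
      have e2 : ix k z.2.1 = ix k y.2.1 := PL.mem_iv.1 h2.2.1
      have e3 : ix k z.2.2 = ix k y.2.2 := PL.mem_iv.1 h2.2.2
      rw [e1, e2, e3]
    rw [← hA k z, h1, hA k y]
  have key := rest_F (F := F) hM hP hB
    (fun k z => if A k z then czF o F0 F1 F2 F3 k z else 0) fun K' hK' x' hx' hb => by
      by_cases hAx : A K' x'
      · refine le_trans ?_ (h K' hK' x' hx' hAx hb)
        have h4 := sum_czF o F0 F1 F2 F3 K' x' (fun _ _ => True) (fun _ _ => Iff.rfl)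
        simp only [filter_true] at h4
        rw [cosA_true] at h4
        rw [← h4]
        refine sum_le_sum fun k _ => sum_le_sum fun z _ => ?_
        split_ifs
        · exact le_rfl
        · exact hnn k z
      · have h5 : ∑ k ∈ range (K' + 1), ∑ z ∈ cube3 K' x',
            (if A k z then czF o F0 F1 F2 F3 k z else 0) = 0 := by
          refine sum_eq_zero fun k hk => sum_eq_zero fun z hz => if_neg fun h6 => hAx ?_
          rw [mem_range] at hk
          exact (hcu K' x' z hz).1 (hup k K' z (by omega) h6)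
        rw [h5]
        positivity
  have e1 : ∑ k ∈ range (K + 1), ∑ z ∈ cube3 K x,
      (if A k z then czF o F0 F1 F2 F3 k z else 0) = cosA A o K x F0 F1 F2 F3 := by
    rw [← sum_czF o F0 F1 F2 F3 K x A hA]
    exact sum_congr rfl fun k _ => (sum_filter _ _).symm
  have e2 : ∑ k ∈ range (K + 1), ∑ z ∈ cube3 K x with ¬ stF M F K k z,
      (if A k z then czF o F0 F1 F2 F3 k z else 0) =
        cosA (fun k z => A k z ∧ ¬ stF M F K k z) o K x F0 F1 F2 F3 := by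
    rw [← sum_czF o F0 F1 F2 F3 K x (fun k z => A k z ∧ ¬ stF M F K k z)
      (fun k z => and_congr (hA k z) (not_congr (stF_crn M F K k z)))]
    refine sum_congr rfl fun k _ => ?_
    rw [← sum_filter, filter_filter]
    refine sum_congr ?_ fun _ _ => rfl
    ext z
    simp only [mem_filter]
    tauto
  rw [e1, e2] at key
  exact key

/-! ### The numbers -/

/-- the function of the fourth stop -/
def fin {V : Type*} [NormedAddCommGroup V] [InnerProductSpace ℝ V] (u v : ℤ → ℤ → V) (p : Pt) : ℝ :=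
  inner ℝ (u p.1 p.2.1) (v p.1 p.2.2)

/-- the threshold -/
def Mf (t c a L s : ℝ) : ℝ := t ^ (-a) * ((L + 1) * t ^ (2 - c) * s ^ (3 / 2 : ℝ))

theorem Mf_pos {t c a L s : ℝ} (ht : 0 < t) (hL : 0 ≤ L) (hs : 0 < s) : 0 < Mf t c a L s := by
  unfold Mf
  positivity

/-- **CE1b**: `CE1a` with the smaller alive set. -/
def CE1b : Prop :=
  ∃ gam c1 d0 a : ℝ, 0 < gam ∧ 0 < c1 ∧ 0 < d0 ∧ 0 < a ∧ ∀ c : ℝ, 0 ≤ c → c ≤ c1 →
  ∀ d : ℝ, 0 < d → d ≤ d0 →
  ∀ Kt e cP L : ℝ, 0 < Kt → 1 ≤ e → 0 ≤ cP → 0 ≤ L → ∃ C : ℝ, 0 ≤ C ∧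
  ∀ t : ℝ, 0 < t → t ≤ 1 → ∀ (n : ℕ) (ez : ℝ) (F1 F2 F3 : ℕ → Pt → ℝ),
    US n (Kt * t ^ (1 - c)) e cP F1 → US n (Kt * t ^ (1 - c)) e cP F3 → ES n ez cP F2 →
  ∀ o : ℤ, o = 1 ∨ o = -1 → ∀ K ≤ n, ∀ (x : Pt)
    (V : Type) [NormedAddCommGroup V] [InnerProductSpace ℝ V] [FiniteDimensional ℝ V]
    (s : ℝ) (g : ℤ → ℤ → ℝ) (u v : ℤ → ℤ → V), 0 < s →
    Cen (iv K x.2.1) (iv K x.2.2) (iv K x.1) 1 √s 1 (L * t ^ (2 - c) * √s) g u v →
    cosA (fun k z => ¬ cst (t ^ (-d)) (nrt (fun p => g p.1 p.2) u v) K k z ∧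
          ¬ stF (Mf t c a L s) (fin u v) K k z) o K x
        (comp (fun p => g p.1 p.2) u v) (fun k _ => F1 k) (fun k _ => F2 k) (fun k _ => F3 k) ≤
      C * (t ^ (1 + gam) * s ^ (5 / 4 : ℝ) * √ez * 8 ^ K)

/-- the energy of `⟪u, v⟫` on the root -/
theorem root_fin {V : Type*} [NormedAddCommGroup V] [InnerProductSpace ℝ V] {K : ℕ} {x : Pt}
    {s W : ℝ} (hs : 0 < s) (hW : 0 ≤ W) {g : ℤ → ℤ → ℝ} {u v : ℤ → ℤ → V}
    (H : Cen (iv K x.2.1) (iv K x.2.2) (iv K x.1) 1 √s 1 W g u v) :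
    (avg (cube3 K x) fun p => fin u v p ^ 2) ≤ W * s := by
  have h1 : (avg (cube3 K x) fun p => fin u v p ^ 2) =
      avg (iv K x.1) fun x1 => avg (iv K x.2.2) fun x3 => avg (iv K x.2.1) fun x2 =>
        (inner ℝ (u x1 x2) (v x1 x3)) ^ 2 := by
    unfold Vale.Agent.P141.PL.H315.cube3 fin
    rw [H550.avg_prod]
    refine H550.avg_congr fun x1 _ => ?_
    rw [H550.avg_prod]
    unfold Vale.Agent.P141.PL.H315.avg
    simp only [mul_sum]
    rw [sum_comm]
    refine sum_congr rfl fun x3 _ => sum_congr rfl fun x2 _ => ?_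
    ring
  rw [h1]
  have h2 : (avg (iv K x.1) fun x1 => avg (iv K x.2.2) fun x3 => avg (iv K x.2.1) fun x2 =>
        (inner ℝ (u x1 x2) (v x1 x3)) ^ 2) ≤
      avg (iv K x.1) fun x1 => avg (iv K x.2.2) fun x3 => W * ‖v x1 x3‖ ^ 2 :=
    H550.avg_mono fun x1 h1 => H550.avg_mono fun x3 _ => H.u_pot x1 h1 (v x1 x3)
  refine h2.trans ?_
  have h3 : (avg (iv K x.1) fun x1 => avg (iv K x.2.2) fun x3 => W * ‖v x1 x3‖ ^ 2) =
      W * avg (iv K x.1) fun x1 => avg (iv K x.2.2) fun x3 => ‖v x1 x3‖ ^ 2 := by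
    unfold Vale.Agent.P141.PL.H315.avg
    simp only [mul_sum]
    refine sum_congr rfl fun x1 _ => sum_congr rfl fun x3 _ => ?_
    ring
  rw [h3]
  refine mul_le_mul_of_nonneg_left ?_ hW
  have h4 := H.v_en
  rwa [one_mul, Real.sq_sqrt hs.le] at h4

/-- the pair weight of the norms on an alive cube -/
theorem wP_loc {V : Type*} [NormedAddCommGroup V] [InnerProductSpace ℝ V] {K K' : ℕ} {x x' : Pt}
    {s W Λ : ℝ} (hs : 0 < s) (hΛ : 0 ≤ Λ) {g : ℤ → ℤ → ℝ} {u v : ℤ → ℤ → V}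
    (H : Cen (iv K x.2.1) (iv K x.2.2) (iv K x.1) 1 √s 1 W g u v) (hK : K' ≤ K)
    (hx : x' ∈ cube3 K x) (h : ¬ cst Λ (nrt (fun p => g p.1 p.2) u v) K K' x') :
    wP 1 (cube3 K' x') (nrt (fun p => g p.1 p.2) u v) ≤ 3 * (8 ^ K' * (Λ * s) ^ (5 / 4 : ℝ)) := by
  have hss : √s ^ 2 = s := Real.sq_sqrt hs.le
  have hm := mem_cube3.1 hx
  have i1 := H498.iv_sub hK hm.1
  have i2 := H498.iv_sub hK hm.2.1
  have i3 := H498.iv_sub hK hm.2.2
  have hSΛ : 0 ≤ Λ * s := by positivity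
  -- heights
  have u1 : ∀ p ∈ iv K' x'.1 ×ˢ iv K' x'.2.1, |(‖u p.1 p.2‖ : ℝ)| ≤ 1 := by
    intro p hp
    rw [mem_product] at hp
    have h := H.u_le p.1 (i1 hp.1) p.2 (i2 hp.2)
    rw [one_pow, one_mul] at h
    rw [abs_norm]
    nlinarith [norm_nonneg (u p.1 p.2)]
  have v1 : ∀ p ∈ iv K' x'.1 ×ˢ iv K' x'.2.2, |(‖v p.1 p.2‖ : ℝ)| ≤ 1 := by
    intro p hp
    rw [mem_product] at hp
    have h := H.v_le p.1 (i1 hp.1) p.2 (i3 hp.2)
    rw [one_pow, one_mul] at h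
    rw [abs_norm]
    nlinarith [norm_nonneg (v p.1 p.2)]
  have g1 : ∀ p ∈ iv K' x'.2.1 ×ˢ iv K' x'.2.2, |g p.1 p.2| ≤ 1 := by
    intro p hp
    rw [mem_product] at hp
    exact H.a_le p.1 (i2 hp.1) p.2 (i3 hp.2)
  -- masses on the root
  have u0 : A2 K (fun p => (‖u p.1 p.2‖ : ℝ)) x.1 x.2.1 ≤ s := by
    unfold Vale.Agent.P141.PL.H315.A2
    rw [H550.avg_prod]
    have h := H.u_en
    rwa [one_mul, hss] at h
  have v0 : A2 K (fun p => (‖v p.1 p.2‖ : ℝ)) x.1 x.2.2 ≤ s := by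
    unfold Vale.Agent.P141.PL.H315.A2
    rw [H550.avg_prod]
    have h := H.v_en
    rwa [one_mul, hss] at h
  have g0 : A2 K (fun p => g p.1 p.2) x.2.1 x.2.2 ≤ s := by
    have h := pow_le_pow_left₀ (n2_nonneg _ _) H.a_n2 2
    rw [H922.n2_sq, hss] at h
    exact h
  -- masses on the cube
  have hn := not_cst h le_rfl hK
  have u2 : n2 (iv K' x'.1 ×ˢ iv K' x'.2.1) (fun p => (‖u p.1 p.2‖ : ℝ)) ≤ √(Λ * s) := by
    refine H498.n2_of_avg ((hn.1.1).trans ?_)
    rw [H498.A2_root hm.1 hm.2.1]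
    exact mul_le_mul_of_nonneg_left u0 hΛ
  have v2 : n2 (iv K' x'.1 ×ˢ iv K' x'.2.2) (fun p => (‖v p.1 p.2‖ : ℝ)) ≤ √(Λ * s) := by
    refine H498.n2_of_avg ((hn.2.1.1).trans ?_)
    rw [H498.A2_root hm.1 hm.2.2]
    exact mul_le_mul_of_nonneg_left v0 hΛ
  have g2 : n2 (iv K' x'.2.1 ×ˢ iv K' x'.2.2) (fun p => g p.1 p.2) ≤ √(Λ * s) := by
    refine H498.n2_of_avg ((hn.2.2.1).trans ?_)
    rw [H498.A2_root hm.2.1 hm.2.2]
    exact mul_le_mul_of_nonneg_left g0 hΛ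
  have un := H305.nN_le_of hSΛ u1 u2
  have vn := H305.nN_le_of hSΛ v1 v2
  have gn := H305.nN_le_of hSΛ g1 g2
  have key : (Λ * s) ^ (3 / 8 : ℝ) * (Λ * s) ^ (3 / 8 : ℝ) * √(Λ * s) = (Λ * s) ^ (5 / 4 : ℝ) := by
    rcases hSΛ.eq_or_lt with h0 | h0
    · rw [← h0, Real.zero_rpow (by norm_num), Real.zero_rpow (by norm_num)]
      ring
    · rw [Real.sqrt_eq_rpow, ← Real.rpow_add h0, ← Real.rpow_add h0]
      norm_num
  have h3 : ∀ a b c : ℝ, 0 ≤ a → 0 ≤ b → 0 ≤ c → a ≤ (Λ * s) ^ (3 / 8 : ℝ) →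
      b ≤ (Λ * s) ^ (3 / 8 : ℝ) → c ≤ √(Λ * s) → a * b * c ≤ (Λ * s) ^ (5 / 4 : ℝ) := by
    intro a b c ha hb hc h1 h2 h3
    rw [← key]
    exact mul_le_mul (mul_le_mul h1 h2 hb (by positivity)) h3 hc (by positivity)
  unfold H922.wP H922.pw3 nrt
  rw [card_cube3, nN_e12, nN_e13, nN_e23, n2_e12, n2_e13, n2_e23]
  have k1 := h3 _ _ _ (nN_nonneg _ _) (nN_nonneg _ _) (n2_nonneg _ _) un vn g2
  have k2 := h3 _ _ _ (nN_nonneg _ _) (nN_nonneg _ _) (n2_nonneg _ _) un gn v2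
  have k3 := h3 _ _ _ (nN_nonneg _ _) (nN_nonneg _ _) (n2_nonneg _ _) vn gn u2
  have h8 : (0 : ℝ) ≤ 8 ^ K' := by positivity
  push_cast
  calc 1 * (8 : ℝ) ^ K' * _ ≤ 1 * (8 : ℝ) ^ K' * ((Λ * s) ^ (5 / 4 : ℝ) + (Λ * s) ^ (5 / 4 : ℝ) +
        (Λ * s) ^ (5 / 4 : ℝ)) := mul_le_mul_of_nonneg_left (add_le_add (add_le_add k1 k2) k3)
          (by positivity)
    _ = _ := by ring

/-- **One more alive stop.** -/
theorem ce1a_of_b (H : CE1b) : H305.CE1a := by
  obtain ⟨gam, c1, d0, a, hgam, hc1, hd0, ha, H⟩ := H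
  set b : ℝ := min a 1 with hb
  have hbp : 0 < b := lt_min ha one_pos
  have hb1 : b ≤ 1 := min_le_right _ _
  have hba : b ≤ a := min_le_left _ _
  set ε : ℝ := b / 16 with hεd
  have hε : 0 < ε := by positivity
  have hε' : ε ≤ 1 / 4 := by rw [hεd]; linarith
  refine ⟨min gam (b / 4), min c1 (b / 8), min d0 (b / 8), lt_min hgam (by positivity),
    lt_min hc1 (by positivity), lt_min hd0 (by positivity),
    fun c hc hcc d hd hdd Kt e cP L hK he hcP hL => ?_⟩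
  obtain ⟨C, hC, H⟩ := H c hc (hcc.trans (min_le_left _ _)) d hd (hdd.trans (min_le_left _ _)) Kt e
    cP L hK he hcP hL
  obtain ⟨Cn, hCn, hnat⟩ := H498.nat_price hε hε' hK he hcP
  refine ⟨C + 18 * Cn, by positivity, ?_⟩
  intro t ht ht1 n ez F1 F2 F3 h1 h3 h2 o ho K hKn x V _ _ _ s g u v hs hcen
  have hez : 0 ≤ ez := h2.1
  have main := H t ht ht1 n ez F1 F2 F3 h1 h3 h2 o ho K hKn x V s g u v hs hcen
  set Λ : ℝ := t ^ (-d) with hΛ
  have hΛ0 : 0 ≤ Λ := Real.rpow_nonneg ht.le _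
  set M : ℝ := Mf t c a L s with hM
  have hM0 : 0 < M := Mf_pos ht hL hs
  set B : ℝ := (L + 1) * t ^ (2 - c) * s ^ (3 / 2 : ℝ) with hB
  have hB0 : 0 < B := by positivity
  set P0 : ℝ := 18 * (Cn * (t ^ (1 - c - 2 * ε) * √ez)) * (Λ * s) ^ (5 / 4 : ℝ) with hP0
  have hP0' : 0 ≤ P0 := by positivity
  have hs32 : √s * s = s ^ (3 / 2 : ℝ) := by
    rw [Real.sqrt_eq_rpow]
    nth_rewrite 2 [← Real.rpow_one s]
    rw [← Real.rpow_add hs]
    norm_num
  have hroot : (avg (cube3 K x) fun p => fin u v p ^ 2) ≤ B := by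
    have hW : 0 ≤ L * t ^ (2 - c) * √s := by positivity
    refine (root_fin hs hW hcen).trans ?_
    have e1 : L * t ^ (2 - c) * √s * s = L * t ^ (2 - c) * (√s * s) := by ring
    rw [e1, hs32, hB]
    have h4 : 0 ≤ t ^ (2 - c) * s ^ (3 / 2 : ℝ) := by positivity
    nlinarith
  have rest := rest_cosF2 (M := M) (B := B) (P0 := P0) (F := fin u v) (K := K) (x := x) hM0 hP0'
    hroot
    (A := fun k z => ¬ cst Λ (nrt (fun p => g p.1 p.2) u v) K k z)
    (fun k z => not_congr (cst_crn Λ _ K k z))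
    (fun k l z hkl h => H579.cst_up h hkl) o (comp (fun p => g p.1 p.2) u v)
    (fun k _ => F1 k) (fun k _ => F2 k) (fun k _ => F3 k) fun K' hK' x' hx' hA _ => by
      have h5 := comp_cosF (P := Cn * (t ^ (1 - c - 2 * ε) * √ez)) (by positivity) o K' x'
        (fun p => g p.1 p.2) u v (fun k _ => F1 k) (fun k _ => F2 k) (fun k _ => F3 k)
        fun a' => hnat c hc t ht ht1 n ez F1 F2 F3 h1 h3 h2 o ho K' (by omega) x' a'
      refine h5.trans ?_
      have h6 := wP_loc hs hΛ0 hcen hK'.le hx' hA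
      have h7 : 0 ≤ 6 * (Cn * (t ^ (1 - c - 2 * ε) * √ez)) := by positivity
      refine (mul_le_mul_of_nonneg_left h6 h7).trans (le_of_eq ?_)
      rw [hP0]
      ring
  refine rest.trans ?_
  have e1 : B / M = t ^ a := by
    rw [hM, Mf, ← hB, Real.rpow_neg ht.le]
    field_simp
  have e2 : t ^ (1 + gam) ≤ t ^ (1 + min gam (b / 4)) :=
    Real.rpow_le_rpow_of_exponent_ge ht ht1 (by linarith [min_le_left gam (b / 4)])
  have e3 : t ^ (1 - c - 2 * ε) * Λ ^ (5 / 4 : ℝ) * t ^ a ≤ t ^ (1 + min gam (b / 4)) := by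
    rw [hΛ, ← Real.rpow_mul ht.le, ← Real.rpow_add ht, ← Real.rpow_add ht]
    refine Real.rpow_le_rpow_of_exponent_ge ht ht1 ?_
    have h5 := min_le_right gam (b / 4)
    have h6 := hcc.trans (min_le_right c1 (b / 8))
    have h7 := hdd.trans (min_le_right d0 (b / 8))
    rw [hεd]
    linarith
  have e4 : P0 * (B / M) * 8 ^ K ≤
      18 * Cn * (t ^ (1 + min gam (b / 4)) * s ^ (5 / 4 : ℝ) * √ez * 8 ^ K) := by
    rw [hP0, e1, Real.mul_rpow hΛ0 hs.le]
    calc 18 * (Cn * (t ^ (1 - c - 2 * ε) * √ez)) * (Λ ^ (5 / 4 : ℝ) * s ^ (5 / 4 : ℝ)) * t ^ a *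
          8 ^ K
        = 18 * Cn * ((t ^ (1 - c - 2 * ε) * Λ ^ (5 / 4 : ℝ) * t ^ a) * s ^ (5 / 4 : ℝ) * √ez *
          8 ^ K) := by ring
      _ ≤ _ := by gcongr
  have e5 : C * (t ^ (1 + gam) * s ^ (5 / 4 : ℝ) * √ez * 8 ^ K) ≤
      C * (t ^ (1 + min gam (b / 4)) * s ^ (5 / 4 : ℝ) * √ez * 8 ^ K) := by
    gcongr
  calc _ ≤ C * (t ^ (1 + min gam (b / 4)) * s ^ (5 / 4 : ℝ) * √ez * 8 ^ K) +
        18 * Cn * (t ^ (1 + min gam (b / 4)) * s ^ (5 / 4 : ℝ) * √ez * 8 ^ K) :=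
          add_le_add (main.trans e5) e4
    _ = _ := by ring

end

end Vale.Agent.P141.H358
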