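import Vale.Agent.P141.H198.RowClsA
import Vale.Agent.P141.H358.AliveF

/-!
# P141, line (S): row classes after the stop of the energy of `⟪u, v⟫`

`CE1rb`: `H305.CE1r` with a scalar majorant `F` of `u ⬝ᵥ v` and the smaller alive set
`¬ cst U ∧ ¬ stF F`; `ce1b_of_rb : CE1rb → CE1b`, `ce1a_of_rb : CE1rb → H305.CE1a`.
-/

namespace Vale.Agent.P141.H358

open Finset
open Vale.Agent.P141.PL (Pt cx mem_cb)
open Vale.Agent.P141.PL.H315 (iv cube3 avg Tri A2)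
open Vale.Agent.P141.PL.H317 (cube3_eq)
open Vale.Agent.P141.H48 (US ES cst)
open Vale.Agent.P141.H136 (comp)
open Vale.Agent.P141.H579 (cosA nrt)
open Vale.Agent.P141.H971 (Cen)
open Vale.Agent.P141.H677 (cv norm_cv cen_coord comp_coord)
open Vale.Agent.P141.H198 (cutC cutC_sq_le cmp_cut cls_of_cen cosA_congr cosA_sum_le cls geo_le
  pow_rpow_neg)

noncomputable section

open scoped Classical

/-- **CE1, one row class**, alive nodes of scalar majorants, `F` a majorant of `u ⬝ᵥ v`. -/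
def CE1rb : Prop :=
  ∃ gam c1 d0 a del : ℝ, 0 < gam ∧ 0 < c1 ∧ 0 < d0 ∧ 0 < a ∧ 0 < del ∧ ∀ c : ℝ, 0 ≤ c → c ≤ c1 →
  ∀ d : ℝ, 0 < d → d ≤ d0 →
  ∀ Kt e cP L : ℝ, 0 < Kt → 1 ≤ e → 0 ≤ cP → 0 ≤ L → ∃ C : ℝ, 0 ≤ C ∧
  ∀ t : ℝ, 0 < t → t ≤ 1 → ∀ (n : ℕ) (ez : ℝ) (F1 F2 F3 : ℕ → Pt → ℝ),
    US n (Kt * t ^ (1 - c)) e cP F1 → US n (Kt * t ^ (1 - c)) e cP F3 → ES n ez cP F2 →
  ∀ o : ℤ, o = 1 ∨ o = -1 → ∀ K ≤ n, ∀ (x : Pt) (ι : Type) [Fintype ι] [DecidableEq ι]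
    (s r : ℝ) (U : Tri) (F : Pt → ℝ) (g : ℤ → ℤ → ℝ) (u v : ℤ → ℤ → ι → ℝ), 0 < s → 1 ≤ r →
    H305.Cls K x s r (L * t ^ (2 - c) * √s) U g u v →
    (∀ p ∈ cube3 K x, |u p.1 p.2.1 ⬝ᵥ v p.1 p.2.2| ≤ |F p|) →
    (avg (cube3 K x) fun p => F p ^ 2) ≤ L * t ^ (2 - c) * √s * s →
    cosA (fun k z => ¬ cst (t ^ (-d)) U K k z ∧ ¬ stF (Mf t c a L s) F K k z) o K x
        (H305.cmp g u v) (fun k _ => F1 k) (fun k _ => F2 k) (fun k _ => F3 k) ≤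
      C * (t ^ (1 + gam) * s ^ (5 / 4 : ℝ) * √ez * 8 ^ K) * r ^ (-del)

/-- the majorant of all classes -/
theorem fin_maj {V : Type*} [NormedAddCommGroup V] [InnerProductSpace ℝ V] [FiniteDimensional ℝ V]
    (E : ℤ → Prop) (u v : ℤ → ℤ → V) (p : Pt) :
    |cutC E (fun z y => cv (u z y)) p.1 p.2.1 ⬝ᵥ cv (v p.1 p.2.2)| ≤ |fin u v p| := by
  unfold H198.cutC fin
  split_ifs
  · rw [H677.inner_cv]
  · rw [zero_dotProduct, abs_zero]
    exact abs_nonneg _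

/-- **The row classes of the alive sum**: `CE1rb → CE1b`. -/
theorem ce1b_of_rb (H : CE1rb) : CE1b := by
  obtain ⟨gam, c1, d0, a, del, hg, hc1, hd0, ha, hdel, H⟩ := H
  refine ⟨gam, c1, d0, a, hg, hc1, hd0, ha, fun c hc hcc d hd hdd Kt e cP L hKt he hcP hL => ?_⟩
  obtain ⟨C, hC, H⟩ := H c hc hcc d hd hdd Kt e cP L hKt he hcP hL
  have hρ1 : (2 : ℝ) ^ (-del) < 1 :=
    Real.rpow_lt_one_of_one_lt_of_neg (by norm_num) (by linarith)
  have hρ0 : (0 : ℝ) ≤ (2 : ℝ) ^ (-del) := by positivity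
  refine ⟨C * (1 - (2 : ℝ) ^ (-del))⁻¹, mul_nonneg hC (inv_nonneg.2 (by linarith)), ?_⟩
  intro t ht ht1 n ez F1 F2 F3 h1 h3 h2 o ho K hK x V _ _ _ s g u v hs hCen
  have hq : 0 < √s := Real.sqrt_pos.2 hs
  set f : ℤ → ℕ := fun z => cls hq (avg (iv K x.2.1) fun y => ‖u z y‖ ^ 2) with hf
  set I : ℕ := (iv K x.1).sup f + 1 with hI
  have hfI : ∀ z ∈ iv K x.1, f z < I := fun z hz => Nat.lt_succ_of_le (le_sup hz)
  have hW : 0 ≤ L * t ^ (2 - c) * √s := by positivity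
  set A : ℕ → Pt → Prop :=
    fun k z => ¬ cst (t ^ (-d)) (nrt (fun p => g p.1 p.2) u v) K k z ∧
      ¬ stF (Mf t c a L s) (fin u v) K k z with hA
  have e1 : cosA A o K x (comp (fun p => g p.1 p.2) u v) (fun k _ => F1 k) (fun k _ => F2 k)
      (fun k _ => F3 k) = cosA A o K x (fun y => ∑ i ∈ range I,
        H305.cmp g (cutC (fun z => f z = i) fun z y => cv (u z y)) (fun z y => cv (v z y)) y)
        (fun k _ => F1 k) (fun k _ => F2 k) (fun k _ => F3 k) := by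
    refine cosA_congr fun y hy => ?_
    rw [comp_coord]
    refine cmp_cut g (fun z y => cv (u z y)) (fun z y => cv (v z y)) f I (hfI y.1 ?_)
    rw [cube3_eq] at hy
    have h := mem_cb.1 hy
    rw [PL.H315.mem_iv]
    exact congrArg Prod.fst h
  rw [e1]
  refine (cosA_sum_le A o K x I _ _ _ _).trans ?_
  have key : ∀ i ∈ range I, cosA A o K x
      (H305.cmp g (cutC (fun z => f z = i) fun z y => cv (u z y)) (fun z y => cv (v z y)))
        (fun k _ => F1 k) (fun k _ => F2 k) (fun k _ => F3 k) ≤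
      C * (t ^ (1 + gam) * s ^ (5 / 4 : ℝ) * √ez * 8 ^ K) * ((2 : ℝ) ^ (-del)) ^ i := by
    intro i _
    rw [← pow_rpow_neg]
    exact H t ht ht1 n ez F1 F2 F3 h1 h3 h2 o ho K hK x (H677.Lab V) s (2 ^ i)
      (nrt (fun p => g p.1 p.2) u v) (fin u v) g _ _ hs (one_le_pow₀ (by norm_num))
      (cls_of_cen hs hCen hq i) (fun p _ => fin_maj (fun z => f z = i) u v p)
      (root_fin hs hW hCen)
  refine (sum_le_sum key).trans ?_
  rw [← mul_sum]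
  have hnn : 0 ≤ C * (t ^ (1 + gam) * s ^ (5 / 4 : ℝ) * √ez * 8 ^ K) := by positivity
  refine (mul_le_mul_of_nonneg_left (geo_le hρ0 hρ1 I) hnn).trans (le_of_eq ?_)
  ring

theorem ce1a_of_rb (H : CE1rb) : H305.CE1a := ce1a_of_b (ce1b_of_rb H)

end

end Vale.Agent.P141.H358
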